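import Vale.Agent.P043.Three.Rigid

/-!
The block of the tile of `ℝ²`: the unit square with a dent in the lower side and the same shape glued
on the upper side, and a strip for `r` vertical slits.

The only interlock is vertical. Two blocks with a common point have overlapping parts outside the
slits.
-/

namespace Vale.Agent.P043.Two

open MeasureTheory Set
open Vale.Agent.P043.Aperiodic Vale.Agent.P043.Aperiodic.Euclid

/-- Points of the plane. -/
abbrev Pt : Type := Fin 2 → ℝ

/-- A cell and a height as a point of the plane. -/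
def toPt (p : ℤ × ℝ) : Pt := ![(p.1 : ℝ), p.2]

@[simp] theorem toPt_zero (p : ℤ × ℝ) : toPt p 0 = (p.1 : ℝ) := rfl

@[simp] theorem toPt_one (p : ℤ × ℝ) : toPt p 1 = p.2 := rfl

theorem toPt_add (p q : ℤ × ℝ) : toPt (p + q) = toPt p + toPt q := by
  funext l
  fin_cases l <;> simp

theorem toPt_inj {p q : ℤ × ℝ} (h : toPt p = toPt q) : p = q := by
  have h0 := congrFun h 0
  have h1 := congrFun h 1
  simp only [toPt_zero, toPt_one] at h0 h1
  exact Prod.ext (by exact_mod_cast h0) h1

/-- The horizontal range of dent and bump. -/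
def InDent (a : ℝ) : Prop := 1 / 5 ≤ a ∧ a < 3 / 10

/-- The block. -/
def block : Set Pt :=
  {y | (0 ≤ y 0 ∧ y 0 < 1 ∧ 0 ≤ y 1 ∧ y 1 < 1 ∧ ¬(InDent (y 0) ∧ y 1 < 1 / 20)) ∨
    (InDent (y 0) ∧ 1 ≤ y 1 ∧ y 1 < 21 / 20)}

/-- The width of each of `r` slits. -/
noncomputable def wd (r : ℕ) : ℝ := 1 / (40 * ((r : ℝ) + 1))

/-- The strip of all slits of a unit square. -/
def slit (r : ℕ) : Set Pt :=
  {y | 7 / 20 ≤ y 0 ∧ y 0 < 7 / 20 + r * wd r ∧ 0 ≤ y 1 ∧ y 1 < 1}

/-- The block without its slits. -/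
def core (r : ℕ) : Set Pt := block \ slit r

theorem wd_pos (r : ℕ) : 0 < wd r := by unfold wd; positivity

theorem slit_width (r : ℕ) : 0 ≤ r * wd r ∧ 7 / 20 + r * wd r < 3 / 8 := by
  have h : (0 : ℝ) ≤ r := Nat.cast_nonneg r
  have hw := wd_pos r
  have e : (r : ℝ) * wd r + wd r = 1 / 40 := by
    unfold wd; field_simp
  exact ⟨mul_nonneg h hw.le, by linarith⟩

/-- An open rectangle. -/
def rect (a b c d : ℝ) : Set Pt := {x | (a < x 0 ∧ x 0 < b) ∧ c < x 1 ∧ x 1 < d}

theorem isOpen_rect (a b c d : ℝ) : IsOpen (rect a b c d) := by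
  simp only [rect, ofPred_and]
  exact ((isOpen_lt continuous_const (by fun_prop)).inter
    (isOpen_lt (by fun_prop) continuous_const)).inter
    ((isOpen_lt continuous_const (by fun_prop)).inter (isOpen_lt (by fun_prop) continuous_const))

theorem rect_nonempty {a b c d : ℝ} (h : a < b) (h' : c < d) : (rect a b c d).Nonempty :=
  ⟨![(a + b) / 2, (c + d) / 2], by simp [rect]; constructor <;> constructor <;> linarith⟩

theorem block_x {y : Pt} (h : y ∈ block) : 0 ≤ y 0 ∧ y 0 < 1 := by
  rcases h with h | h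
  · exact ⟨h.1, h.2.1⟩
  · exact ⟨by linarith [h.1.1], by linarith [h.1.2]⟩

theorem block_y {y : Pt} (h : y ∈ block) : 0 ≤ y 1 ∧ y 1 < 21 / 20 := by
  rcases h with h | h
  · exact ⟨h.2.2.1, by linarith [h.2.2.2.1]⟩
  · exact ⟨by linarith [h.2.1], h.2.2⟩

theorem core_subset_block (r : ℕ) : core r ⊆ block := sdiff_subset

theorem slit_subset_block (r : ℕ) : slit r ⊆ block := fun y hy => by
  have := slit_width r
  exact Or.inl ⟨by linarith [hy.1], by linarith [hy.2.1], hy.2.2.1, hy.2.2.2, fun h => by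
    linarith [hy.1, h.1.2]⟩

/-- Points with both coordinates clear of the dent and of the slits. -/
theorem mem_core_of_clear {r : ℕ} {y : Pt} (h0 : Three.Rigid.Clear (y 0))
    (h1 : Three.Rigid.Clear (y 1)) : y ∈ core r := by
  have := slit_width r
  refine ⟨Or.inl ⟨h0.1.le, h0.2.1, h1.1.le, h1.2.1, fun h => ?_⟩, fun h => ?_⟩
  · rcases h0.2.2 with g | g <;> linarith [h.1.1, h.1.2]
  · rcases h0.2.2 with g | g <;> linarith [h.1, h.2.1]

private theorem overlap_high {r : ℕ} {w z : Pt} (hz : z ∈ block) (hz' : z - w ∈ block)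
    (hw : 1 ≤ w 1) :
    ∃ U : Set Pt, IsOpen U ∧ U.Nonempty ∧ U ⊆ core r ∧ ∀ x ∈ U, x - w ∈ core r := by
  have hs := slit_width r
  have hy := block_y hz'
  simp only [Pi.sub_apply] at hy
  rcases hz with hz | ⟨zd, z1, z2⟩
  · linarith [hz.2.2.2.1]
  rcases hz' with hz' | hz'
  swap
  · simp only [Pi.sub_apply] at hz'
    linarith [hz'.2.1]
  obtain ⟨a1, a2, -, -, a3⟩ := hz'
  simp only [Pi.sub_apply] at a1 a2 a3
  have hne : w 0 ≠ 0 := fun h => a3 ⟨by simpa [h] using zd, by linarith⟩
  -- an interval of the bump avoiding dent and slits of the upper block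
  obtain ⟨l, u, hlu, l0, u1, hl, hu, g1, g2⟩ : ∃ l u : ℝ, l < u ∧ 0 ≤ l ∧ u ≤ 1 ∧
      1 / 5 ≤ l + w 0 ∧ u + w 0 ≤ 3 / 10 ∧ (u ≤ 1 / 5 ∨ 3 / 10 ≤ l) ∧
      (u ≤ 7 / 20 ∨ 3 / 8 ≤ l) := by
    obtain ⟨d1, d2⟩ := zd
    rcases lt_or_gt_of_ne hne with h | h
    · by_cases h' : 1 / 5 - w 0 < 7 / 20
      · refine ⟨max (3 / 10) (1 / 5 - w 0), min (7 / 20) (3 / 10 - w 0),
          max_lt (lt_min (by norm_num) (by linarith)) (lt_min h' (by linarith)), ?_, ?_, ?_, ?_,
          Or.inr (le_max_left _ _), Or.inl (min_le_left _ _)⟩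
        · linarith [le_max_left (3 / 10 : ℝ) (1 / 5 - w 0)]
        · linarith [min_le_left (7 / 20 : ℝ) (3 / 10 - w 0)]
        · linarith [le_max_right (3 / 10 : ℝ) (1 / 5 - w 0)]
        · linarith [min_le_right (7 / 20 : ℝ) (3 / 10 - w 0)]
      · push Not at h'
        refine ⟨max (3 / 8) (1 / 5 - w 0), min 1 (3 / 10 - w 0),
          max_lt (lt_min (by norm_num) (by linarith)) (lt_min (by linarith) (by linarith)),
          ?_, min_le_left _ _, ?_, ?_, Or.inr ?_, Or.inr (le_max_left _ _)⟩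
        · linarith [le_max_left (3 / 8 : ℝ) (1 / 5 - w 0)]
        · linarith [le_max_right (3 / 8 : ℝ) (1 / 5 - w 0)]
        · linarith [min_le_right (1 : ℝ) (3 / 10 - w 0)]
        · linarith [le_max_left (3 / 8 : ℝ) (1 / 5 - w 0)]
    · refine ⟨max 0 (1 / 5 - w 0), min (1 / 5) (3 / 10 - w 0),
        max_lt (lt_min (by norm_num) (by linarith)) (lt_min (by linarith) (by linarith)),
        le_max_left _ _, ?_, ?_, ?_, Or.inl (min_le_left _ _), Or.inl ?_⟩
      · linarith [min_le_left (1 / 5 : ℝ) (3 / 10 - w 0)]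
      · linarith [le_max_right (0 : ℝ) (1 / 5 - w 0)]
      · linarith [min_le_right (1 / 5 : ℝ) (3 / 10 - w 0)]
      · linarith [min_le_left (1 / 5 : ℝ) (3 / 10 - w 0)]
  refine ⟨rect (l + w 0) (u + w 0) (w 1) (21 / 20), isOpen_rect _ _ _ _,
    rect_nonempty (by linarith) (by linarith), ?_, ?_⟩
  · rintro x ⟨⟨x0, x0'⟩, x1, x1'⟩
    exact ⟨Or.inr ⟨⟨by linarith, by linarith⟩, by linarith, x1'⟩, fun h => by
      linarith [h.2.2.2]⟩
  · rintro x ⟨⟨x0, x0'⟩, x1, x1'⟩
    refine ⟨Or.inl ⟨?_, ?_, ?_, ?_, fun h => ?_⟩, fun h => ?_⟩ <;>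
      (try simp only [Pi.sub_apply] at *)
    · linarith
    · linarith
    · linarith
    · linarith
    · obtain ⟨⟨e1, e2⟩, -⟩ := h
      try simp only [Pi.sub_apply] at e1 e2
      rcases g1 with g | g <;> linarith
    · obtain ⟨e1, e2, -⟩ := h
      try simp only [Pi.sub_apply] at e1 e2
      rcases g2 with g | g <;> linarith

/-- Blocks with a common point have overlapping parts outside the slits. -/
theorem core_overlap (r : ℕ) {w z : Pt} (hz : z ∈ block) (hz' : z - w ∈ block) :
    ∃ U : Set Pt, IsOpen U ∧ U.Nonempty ∧ U ⊆ core r ∧ ∀ x ∈ U, x - w ∈ core r := by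
  have a := block_x hz
  have b := block_x hz'
  simp only [Pi.sub_apply] at b
  by_cases h1 : |w 1| < 1
  · obtain ⟨s, hs, hs'⟩ := Three.Rigid.exists_clear_pair (w := w 0)
      (abs_lt.2 ⟨by linarith, by linarith⟩)
    obtain ⟨u, hu, hu'⟩ := Three.Rigid.exists_clear_pair h1
    refine ⟨{x | ∀ l, x l ∈ {s | Three.Rigid.Clear s}} ∩
      {x | ∀ l, (x - w) l ∈ {s | Three.Rigid.Clear s}}, ?_, ⟨![s + w 0, u + w 1], ?_, ?_⟩,
      fun x hx => mem_core_of_clear (hx.1 0) (hx.1 1),
      fun x hx => mem_core_of_clear (hx.2 0) (hx.2 1)⟩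
    · have hc : IsOpen {s : ℝ | Three.Rigid.Clear s} := by
        simp only [Three.Rigid.Clear, ofPred_and, ofPred_or]
        exact (isOpen_lt continuous_const continuous_id).inter
          ((isOpen_lt continuous_id continuous_const).inter
            ((isOpen_lt continuous_id continuous_const).union
              (isOpen_lt continuous_const continuous_id)))
      simp only [ofPred_forall]
      exact (isOpen_iInter_of_finite fun l => hc.preimage (continuous_apply l)).inter
        (isOpen_iInter_of_finite fun l => hc.preimage (by fun_prop))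
    · intro l; fin_cases l <;> simpa
    · intro l; fin_cases l <;> simpa
  rcases le_abs'.1 (not_lt.1 h1) with h | h
  · obtain ⟨U, hU, ⟨x, hx⟩, hU1, hU2⟩ := overlap_high (r := r) (w := -w) (z := z - w) hz'
      (by simpa using hz) (by simpa using (by linarith : 1 ≤ -w 1))
    refine ⟨(fun x => x - w) ⁻¹' U, hU.preimage (by fun_prop), ⟨x + w, by simpa⟩,
      fun y hy => ?_, fun y hy => hU1 hy⟩
    simpa using hU2 _ hy
  · exact overlap_high hz hz' h

/-- Blocks whose corners are closer than one in both directions have a common point. -/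
theorem exists_common {t u : Pt} (h : ∀ l, |u l - t l| < 1) :
    ∃ x, x - t ∈ block ∧ x - u ∈ block := by
  choose s hs hs' using fun l => Three.Rigid.exists_clear_pair (h l)
  refine ⟨s + u, (mem_core_of_clear (r := 0) ?_ ?_).1, ?_⟩
  · simpa [add_sub_assoc] using hs' 0
  · simpa [add_sub_assoc] using hs' 1
  · simpa using (mem_core_of_clear (r := 0) (hs 0) (hs 1)).1

theorem measurableSet_block : MeasurableSet block := by
  have h0 : Measurable fun y : Pt => y 0 := measurable_pi_apply 0
  have h1 : Measurable fun y : Pt => y 1 := measurable_pi_apply 1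
  unfold block InDent
  measurability

theorem measurableSet_slit (r : ℕ) : MeasurableSet (slit r) := by
  have h0 : Measurable fun y : Pt => y 0 := measurable_pi_apply 0
  have h1 : Measurable fun y : Pt => y 1 := measurable_pi_apply 1
  unfold slit
  measurability

theorem measurableSet_core (r : ℕ) : MeasurableSet (core r) :=
  measurableSet_block.diff (measurableSet_slit r)

theorem isBounded_block : Bornology.IsBounded block :=
  (Metric.isBounded_Icc (0 : Pt) fun _ => 21 / 20).subset fun y hy => by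
    have hx := block_x hy
    have hy' := block_y hy
    exact ⟨fun l => by fin_cases l <;> simp <;> linarith,
      fun l => by fin_cases l <;> simp <;> linarith⟩

theorem core_volume_pos (r : ℕ) : 0 < volume (core r) := by
  refine ((isOpen_rect (1 / 2) 1 (1 / 2) 1).measure_pos volume
    (rect_nonempty (by norm_num) (by norm_num))).trans_le (measure_mono fun y hy => ?_)
  exact mem_core_of_clear ⟨by linarith [hy.1.1], hy.1.2, Or.inr (by linarith [hy.1.1])⟩
    ⟨by linarith [hy.2.1], hy.2.2, Or.inr (by linarith [hy.2.1])⟩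

end Vale.Agent.P043.Two
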