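import Vale.Agent.P043.Two.Block
import Mathlib.Algebra.Module.ZLattice.Basic
import Mathlib.MeasureTheory.Group.FundamentalDomain

/-!
Periodic translation sets of the plane: a periodic packing of a set of at least the volume of a tile
is a tiling.
-/

namespace Vale.Agent.P043.Two

open MeasureTheory Set Function
open scoped Pointwise
open Vale.Agent.P043.Aperiodic Vale.Agent.P043.Aperiodic.Euclid

theorem volume_translate (S : Set Pt) (a : Pt) : volume {x | x - a ∈ S} = volume S := by
  simp only [sub_eq_add_neg]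
  exact measure_preimage_add_right volume (-a) S

theorem measurableSet_translate {S : Set Pt} (hS : MeasurableSet S) (a : Pt) :
    MeasurableSet {x | x - a ∈ S} :=
  (by fun_prop : Measurable fun x : Pt => x - a) hS

private theorem tsum_indicator_eq {α : Type*} (D : Set Pt) (f : α → Pt) :
    ∑' a, D.indicator (1 : Pt → ENNReal) (f a) = ∑' _ : ↥(f ⁻¹' D), (1 : ENNReal) := by
  rw [tsum_subtype (f ⁻¹' D) fun _ => (1 : ENNReal)]
  exact tsum_congr fun a => rfl

/-- All translates of the fundamental domain contain equally many points of a periodic set. -/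
private theorem count_const (b : Module.Basis (Fin 2) ℝ Pt) {A : Set Pt}
    (hA : ∀ g ∈ Submodule.span ℤ (range b), ∀ a, a + g ∈ A ↔ a ∈ A) (y : Pt) :
    ∑' a : A, (ZSpan.fundamentalDomain b).indicator (1 : Pt → ENNReal) (y + a.1) =
      ∑' a : A, (ZSpan.fundamentalDomain b).indicator 1 a.1 := by
  have hfr : ∀ z ∈ A, ∀ u : Pt, ZSpan.fract b (u + z) - u ∈ A := by
    intro z hz u
    rw [ZSpan.fract_apply, show u + z - ↑(ZSpan.floor b (u + z)) - u
      = z + -(ZSpan.floor b (u + z) : Pt) by abel]
    exact (hA _ (neg_mem (ZSpan.floor b (u + z)).2) z).2 hz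
  have hmem : ∀ z, z ∈ ZSpan.fundamentalDomain b → ZSpan.fract b z = z := fun z hz =>
    ZSpan.fract_eq_self.2 hz
  rw [tsum_indicator_eq _ fun a : A => y + a.1, tsum_indicator_eq _ fun a : A => a.1]
  let e : ↥((fun a : A => y + a.1) ⁻¹' ZSpan.fundamentalDomain b) ≃
      ↥((fun a : A => a.1) ⁻¹' ZSpan.fundamentalDomain b) :=
    { toFun := fun a => ⟨⟨ZSpan.fract b a.1.1, by simpa using hfr _ a.1.2 0⟩,
        ZSpan.fract_mem_fundamentalDomain b _⟩
      invFun := fun a => ⟨⟨ZSpan.fract b (y + a.1.1) - y, hfr _ a.1.2 y⟩, by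
        simp only [mem_preimage, add_sub_cancel]
        exact ZSpan.fract_mem_fundamentalDomain b _⟩
      left_inv := fun a => by
        refine Subtype.ext (Subtype.ext ?_)
        simp only
        rw [ZSpan.fract_apply b a.1.1, show y + (a.1.1 - ↑(ZSpan.floor b a.1.1))
          = -(ZSpan.floor b a.1.1 : Pt) + (y + a.1.1) by abel,
          ZSpan.fract_zSpan_add _ _ (neg_mem (ZSpan.floor b a.1.1).2), hmem _ a.2]
        exact add_sub_cancel_left y a.1.1
      right_inv := fun a => by
        refine Subtype.ext (Subtype.ext ?_)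
        simp only
        rw [ZSpan.fract_apply b (y + a.1.1), show y + a.1.1 - ↑(ZSpan.floor b (y + a.1.1)) - y
          = -(ZSpan.floor b (y + a.1.1) : Pt) + a.1.1 by abel,
          ZSpan.fract_zSpan_add _ _ (neg_mem (ZSpan.floor b (y + a.1.1)).2), hmem _ a.2] }
  exact e.tsum_eq fun _ => (1 : ENNReal)

/-- The translates of a set take up its volume times the number of points in the domain. -/
private theorem tsum_inter_domain (b : Module.Basis (Fin 2) ℝ Pt) {A : Set Pt} [Countable A]
    (hA : ∀ g ∈ Submodule.span ℤ (range b), ∀ a, a + g ∈ A ↔ a ∈ A) (S : Set Pt) :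
    ∑' a : A, volume ({x | x - a.1 ∈ S} ∩ ZSpan.fundamentalDomain b) =
      (∑' a : A, (ZSpan.fundamentalDomain b).indicator 1 a.1) * volume S := by
  have hD := ZSpan.fundamentalDomain_measurableSet b
  have hterm : ∀ a : A, volume ({x | x - a.1 ∈ S} ∩ ZSpan.fundamentalDomain b) =
      ∫⁻ y in S, (ZSpan.fundamentalDomain b).indicator 1 (y + a.1) := fun a => by
    have hm : MeasurableSet ((fun y : Pt => y + a.1) ⁻¹' ZSpan.fundamentalDomain b) :=
      (by fun_prop : Measurable fun y : Pt => y + a.1) hD
    have : (fun y : Pt => (ZSpan.fundamentalDomain b).indicator (1 : Pt → ENNReal) (y + a.1)) =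
        ((fun y : Pt => y + a.1) ⁻¹' ZSpan.fundamentalDomain b).indicator fun _ => 1 := by
      funext z
      exact (Set.indicator_comp_right (s := ZSpan.fundamentalDomain b)
        (g := fun _ : Pt => (1 : ENNReal)) fun y : Pt => y + a.1).symm
    rw [this, lintegral_indicator_const hm, one_mul, Measure.restrict_apply hm,
      ← measure_preimage_add_right volume a.1]
    congr 1
    ext y; simp [and_comm]
  simp only [hterm]
  have hmeas : ∀ a : A, AEMeasurable
      (fun y => (ZSpan.fundamentalDomain b).indicator (1 : Pt → ENNReal) (y + a.1))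
      (volume.restrict S) := fun a =>
    (((measurable_const (a := (1 : ENNReal))).indicator hD).comp
      (measurable_add_const a.1)).aemeasurable
  rw [← lintegral_tsum hmeas]
  simp only [count_const b hA, lintegral_const, Measure.restrict_apply_univ]

/-- Periodic translation sets give every set the same density per volume, so a periodic packing of
a set of at least the volume of a tile is a tiling. -/
theorem tiles_of_packing {A : Set Pt} (hA : RPeriodic A) {Ω Ω2 : Set Pt} (hΩ : MeasurableSet Ω)
    (hΩ2 : MeasurableSet Ω2) (hpos : volume Ω ≠ 0) (hvol : volume Ω ≤ volume Ω2)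
    (hT : RTiles Ω A)
    (hP : A.Pairwise fun a b => volume ({x | x - a ∈ Ω2} ∩ {x | x - b ∈ Ω2}) = 0) :
    RTiles Ω2 A := by
  classical
  refine ⟨?_, hP⟩
  obtain ⟨v, hv, hper⟩ := hA
  have hcard : Fintype.card (Fin 2) = Module.finrank ℝ Pt := by simp
  set b := basisOfLinearIndependentOfCardEqFinrank hv hcard
  have hb : ⇑b = v := coe_basisOfLinearIndependentOfCardEqFinrank hv hcard
  set L : Submodule ℤ Pt := Submodule.span ℤ (Set.range b) with hLdef
  have hL : ∀ g ∈ L, ∀ a, a + g ∈ A ↔ a ∈ A := by
    intro g hg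
    let P : AddSubgroup Pt :=
      { carrier := {g | ∀ a, a + g ∈ A ↔ a ∈ A}
        add_mem' := fun {g g'} hg hg' s => by rw [← add_assoc, hg', hg]
        zero_mem' := fun s => by simp
        neg_mem' := fun {g} hg s => by simpa using (hg (s + -g)).symm }
    refine Submodule.span_induction (p := fun g _ => g ∈ P) ?_ P.zero_mem
      (fun _ _ _ _ => P.add_mem) (fun n x _ hx => P.zsmul_mem hx n) hg
    rintro _ ⟨i, rfl⟩ a
    rw [hb]
    exact hper i a
  set D := ZSpan.fundamentalDomain b
  have hD : MeasurableSet D := ZSpan.fundamentalDomain_measurableSet b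
  have hDtop : volume D ≠ ⊤ := (ZSpan.fundamentalDomain_isBounded b).measure_lt_top.ne
  have hF : IsAddFundamentalDomain L D volume := ZSpan.isAddFundamentalDomain b volume
  have hsh : ∀ (S : Set Pt) (a : Pt), MeasurableSet S → MeasurableSet {x | x - a ∈ S} :=
    fun S a hS => measurableSet_translate hS a
  have hvs := volume_translate
  -- the translation set is countable
  have hcount : Countable A := by
    have h := Measure.countable_meas_pos_of_disjoint_iUnion₀
      (μ := (volume : Measure Pt)) (As := fun a : A => {x : Pt | x - a.1 ∈ Ω})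
      (fun a => (hsh Ω a hΩ).nullMeasurableSet)
      (fun a c hac => hT.2 a.2 c.2 fun e => hac (Subtype.ext e))
    have : {a : A | 0 < volume {x : Pt | x - a.1 ∈ Ω}} = univ :=
      eq_univ_of_forall fun a => by simpa [hvs, pos_iff_ne_zero] using hpos
    rw [this] at h
    exact countable_univ_iff.1 h
  have key := fun S => tsum_inter_domain b hL S
  -- compare on the domain
  have hU : ∀ S, MeasurableSet S →
      (A.Pairwise fun a c => volume ({x | x - a ∈ S} ∩ {x | x - c ∈ S}) = 0) →
      volume ((⋃ a : A, {x | x - a.1 ∈ S}) ∩ D) = (∑' a : A, D.indicator 1 a.1) * volume S := by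
    intro S hS hpair
    rw [iUnion_inter, measure_iUnion₀ (f := fun a : A => {x | x - a.1 ∈ S} ∩ D) (fun a c hac => ?_)
      fun a => ((hsh S a hS).inter hD).nullMeasurableSet, key S]
    exact measure_mono_null (inter_subset_inter inter_subset_left inter_subset_left)
      (hpair a.2 c.2 fun e => hac (Subtype.ext e))
  have hfull : volume ((⋃ a : A, {x | x - a.1 ∈ Ω}) ∩ D) = volume D := by
    refine measure_congr (ae_eq_set.2 ⟨by rw [Set.sdiff_eq_empty.2 inter_subset_right]; exact measure_empty, ?_⟩)
    refine measure_mono_null (fun x hx => ?_) (ae_iff.1 hT.1)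
    simp only [mem_sdiff, mem_inter_iff, mem_iUnion, mem_ofPred_eq, Subtype.exists] at hx ⊢
    rintro ⟨a, ha, hxa⟩
    exact hx.2 ⟨⟨a, ha, hxa⟩, hx.1⟩
  set U2 := ⋃ a : A, {x | x - a.1 ∈ Ω2} with hU2
  have hU2m : MeasurableSet U2 := .iUnion fun a => hsh Ω2 a hΩ2
  have hz : volume (U2ᶜ ∩ D) = 0 := by
    have e : volume (U2 ∩ D) = volume D := by
      refine le_antisymm (measure_mono inter_subset_right) ?_
      rw [hU Ω2 hΩ2 hP, ← hfull, hU Ω hΩ hT.2]
      gcongr
    rw [inter_comm, ← Set.sdiff_eq, ← sdiff_inter_self_eq_sdiff,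
      measure_sdiff inter_subset_right (hU2m.inter hD).nullMeasurableSet (e ▸ hDtop), e,
      tsub_self]
  have hinv : ∀ g : L, g +ᵥ U2ᶜ = U2ᶜ := by
    intro g
    ext x
    rw [mem_vadd_set_iff_neg_vadd_mem]
    simp only [hU2, mem_compl_iff, mem_iUnion, mem_ofPred_eq, Subtype.exists, not_iff_not]
    rw [Submodule.vadd_def, vadd_eq_add]
    constructor
    · rintro ⟨a, ha, hxa⟩
      refine ⟨a + g.1, (hL _ g.2 a).2 ha, ?_⟩
      rwa [show x - (a + g.1) = (↑(-g) : Pt) + x - a by simp; abel]
    · rintro ⟨a, ha, hxa⟩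
      refine ⟨a + -g.1, (hL _ (L.neg_mem g.2) a).2 ha, ?_⟩
      rwa [show (↑(-g) : Pt) + x - (a + -g.1) = x - a by simp; abel]
  have : VAddInvariantMeasure L Pt volume :=
    inferInstanceAs <| VAddInvariantMeasure L.toAddSubgroup Pt volume
  have := hF.measure_zero_of_invariant U2ᶜ hinv hz
  refine ae_iff.2 (measure_mono_null (fun x hx => ?_) this)
  simp only [mem_ofPred_eq, not_exists, not_and] at hx
  simp only [hU2, mem_compl_iff, mem_iUnion, mem_ofPred_eq, not_exists, Subtype.forall]
  exact hx

end Vale.Agent.P043.Two
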