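import Vale.Agent.P043.Two.Tile

/-!
A tiling by the tile whose translates lie over one coset of `ℤ` gives a common solution.
-/

open MeasureTheory Set

namespace Vale.Agent.P043.Two

open Vale.Agent.P043.Aperiodic Vale.Agent.P043.Aperiodic.Euclid

/-- A tile seen over an interval of every cell gives its equation. -/
theorem pieceTiles_of_region {σ : Type} (Q : σ → Piece)
    (hd : ∀ i j t, (Q i).cell = (Q j).cell → (Q i).lo < t → t < (Q i).lo + (Q i).len →
      (Q j).lo < t → t < (Q j).lo + (Q j).len → i = j)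
    {Ω A : Set Pt} {o : Pt} (hA : RTiles Ω A) (hint : ∀ a ∈ A, ∃ n : ℤ, a 0 = o 0 + n)
    {u₀ u₁ : ℝ} (hu : u₀ < u₁)
    (hF : ∀ (x : Pt) (n : ℤ), u₀ < x 0 - n → x 0 - n < u₁ → (x ∈ Ω ↔ Hit Q n (x 1))) :
    PieceTiles Q {p | o + toPt p ∈ A} := fun n => by
  constructor
  · rintro ⟨i, s⟩ hi ⟨j, s'⟩ hj t hi1 hi2 hj1 hj2
    dsimp only at hi1 hi2 hj1 hj2
    simp only [colIdx, mem_ofPred_eq] at hi hj
    have same : o + toPt (n - (Q i).cell, s) = o + toPt (n - (Q j).cell, s') := by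
      by_contra hne
      set a := max (s + (Q i).lo) (s' + (Q j).lo)
      set b := min (s + (Q i).lo + (Q i).len) (s' + (Q j).lo + (Q j).len)
      have hab : a < b := (max_lt hi1 hj1).trans (lt_min hi2 hj2)
      have := le_max_left (s + (Q i).lo) (s' + (Q j).lo)
      have := le_max_right (s + (Q i).lo) (s' + (Q j).lo)
      have := min_le_left (s + (Q i).lo + (Q i).len) (s' + (Q j).lo + (Q j).len)
      have := min_le_right (s + (Q i).lo + (Q i).len) (s' + (Q j).lo + (Q j).len)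
      refine ((isOpen_rect (o 0 + n + u₀) (o 0 + n + u₁) (o 1 + a) (o 1 + b)).measure_pos volume
        (rect_nonempty (by linarith) (by linarith))).ne' (measure_mono_null ?_ (hA.2 hi hj hne))
      rintro x ⟨⟨x1, x2⟩, z1, z2⟩
      have mem : ∀ (k : σ) (w : ℝ), w + (Q k).lo < x 1 - o 1 →
          x 1 - o 1 < w + (Q k).lo + (Q k).len → x - (o + toPt (n - (Q k).cell, w)) ∈ Ω := by
        intro k w h1 h2
        refine (hF _ (Q k).cell ?_ ?_).2 ⟨k, rfl, ?_, ?_⟩ <;>
          simp only [Pi.sub_apply, Pi.add_apply, toPt_zero, toPt_one, Int.cast_sub] <;> linarith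
      exact ⟨mem i s (by linarith) (by linarith), mem j s' (by linarith) (by linarith)⟩
    obtain ⟨e1, e2⟩ := Prod.mk.injEq .. ▸ toPt_inj (add_left_cancel same)
    subst e2
    rw [hd i j (t - s) (by omega) (by linarith) (by linarith) (by linarith) (by linarith)]
  · intro a b hab
    obtain ⟨x, ⟨⟨x1, x2⟩, z1, z2⟩, c, hc, hxc⟩ := exists_mem_of_ae
      (isOpen_rect (o 0 + n + u₀) (o 0 + n + u₁) (o 1 + a) (o 1 + b))
      (rect_nonempty (by linarith) (by linarith)) hA.1
    obtain ⟨m, hm⟩ := hint c hc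
    obtain ⟨i, hcell, l1, l2⟩ := (hF (x - c) (n - m)
      (by simp [hm]; linarith) (by simp [hm]; linarith)).1 hxc
    simp only [Pi.sub_apply] at l1 l2
    refine ⟨(i, c 1 - o 1), ?_,
      (x 1 - o 1 + min b (c 1 - o 1 + (Q i).lo + (Q i).len)) / 2, ?_⟩
    · simp only [colIdx, mem_ofPred_eq, hcell, sub_sub_cancel]
      convert hc using 1
      funext l
      fin_cases l <;> simp [hm]
    · have h2 : x 1 - o 1 < min b (c 1 - o 1 + (Q i).lo + (Q i).len) :=
        lt_min (by linarith) (by linarith)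
      have := min_le_left b (c 1 - o 1 + (Q i).lo + (Q i).len)
      have := min_le_right b (c 1 - o 1 + (Q i).lo + (Q i).len)
      refine ⟨?_, ?_, ?_, ?_⟩ <;> linarith

variable {ι : Type} [Fintype ι] {r : ℕ} {κ : Fin r → Type} [∀ k, Fintype (κ k)]
  {B : ι → Piece} {P : ∀ k, κ k → Piece}

/-- A tiling by the tile over one coset of `ℤ` gives a common solution. -/
theorem solves_of_rtiles (hS : Seed B P) {A₀ : Set (ℤ × ℝ)} (h₀ : Solves B P A₀) {A : Set Pt}
    {o : Pt} (hA : RTiles (omega B P) A) (hint : ∀ a ∈ A, ∃ n : ℤ, a 0 = o 0 + n) :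
    Solves B P {p | o + toPt p ∈ A} :=
  ⟨pieceTiles_of_region B (fun _ _ _ hc => h₀.base.self_disj hc) hA hint
      (u₀ := 1 / 2) (u₁ := 1) (by norm_num) fun _ _ a1 a2 => mem_omega_mid hS.unit a1 a2,
    fun k => pieceTiles_of_region (P k) (fun _ _ _ hc => (h₀.extra k).self_disj hc) hA hint
      (u₀ := 7 / 20 + (k : ℕ) * wd r) (u₁ := 7 / 20 + ((k : ℕ) + 1) * wd r)
      (by linarith [wd_pos r]) fun _ _ a1 a2 => mem_omega_foot ⟨a1.le, a2⟩⟩

end Vale.Agent.P043.Two
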