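import Vale.Agent.P043.Two.Tile

/-!
A common solution gives a tiling of the plane by the tile.
-/

open MeasureTheory Set

namespace Vale.Agent.P043.Two

open Vale.Agent.P043.Three (exists_shift exists_int_diff eq_of_lo_eq)
open Vale.Agent.P043.Aperiodic Vale.Agent.P043.Aperiodic.Euclid

/-- Blocks one above the other have no common point. -/
theorem block_int {y : Pt} {k : ℤ} (h : y ∈ block) (h' : y - toPt (0, (k : ℝ)) ∈ block) :
    k = 0 := by
  have a := block_y h
  have b := block_y h'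
  simp at b
  have k1 : k < 2 := Int.cast_lt.1 (show (k : ℝ) < ((2 : ℤ) : ℝ) by push_cast; linarith)
  have k2 : -2 < k := Int.cast_lt.1 (show ((-2 : ℤ) : ℝ) < k by push_cast; linarith)
  have cases3 : k = 0 ∨ k = 1 ∨ k = -1 := by omega
  rcases cases3 with rfl | rfl | rfl
  · rfl
  · rcases h with h | h <;> rcases h' with h' | h' <;> simp at h h'
    · linarith [h.2.2.2.1, h'.2.2.1]
    · linarith [h.2.2.2.1, h'.2.1]
    · exact absurd h'.2.2.2.2 (by
        simp only [not_forall, not_le]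
        exact ⟨h.1, by linarith [h.2.2]⟩)
    · linarith [h.2.2, h'.2.1]
  · rcases h with h | h <;> rcases h' with h' | h' <;> simp at h h'
    · linarith [h.2.2.1, h'.2.2.2.1]
    · exact absurd h.2.2.2.2 (by
        simp only [not_forall, not_le]
        exact ⟨h'.1, by linarith [h'.2.2]⟩)
    · linarith [h.2.1, h'.2.2.2.1]
    · linarith [h.2.1, h'.2.2]

variable {ι : Type} [Fintype ι] {r : ℕ} {κ : Fin r → Type} [∀ k, Fintype (κ k)]
  {B : ι → Piece} {P : ∀ k, κ k → Piece} {A : Set (ℤ × ℝ)}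

omit [Fintype ι] in
theorem hit_unique {σ : Type} [Finite σ] {Q : σ → Piece} (h : PieceTiles Q A)
    (hpos : ∀ i, 0 < (Q i).len) (n : ℤ) (t : ℝ) :
    ∃! p, p ∈ A ∧ Hit Q (n - p.1) (t - p.2) := by
  obtain ⟨⟨i, b⟩, ⟨hm, h1, h2⟩, hu⟩ := h.exact hpos n t
  dsimp only at h1 h2
  refine ⟨(n - (Q i).cell, b), ⟨hm, i, (sub_sub_cancel _ _).symm, by linarith, by linarith⟩, ?_⟩
  rintro ⟨w, c⟩ ⟨hp, j, hc, g1, g2⟩
  dsimp only at hc g1 g2
  have hw : w = n - (Q j).cell := by rw [hc, sub_sub_cancel]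
  have := hu (j, c) ⟨(show (n - (Q j).cell, c) ∈ A from hw ▸ hp), by dsimp only; linarith,
    by dsimp only; linarith⟩
  obtain ⟨rfl, rfl⟩ := Prod.mk.injEq .. ▸ this
  rw [hw]

/-- Every point lies in exactly one block. -/
theorem blocks_unique (hu : ∀ i, (B i).len = 1) (h : PieceTiles B A) (x : Pt) :
    ∃! p, p ∈ A ∧ ∃ i, x - (toPt p + pB B i) ∈ block := by
  set n := ⌊x 0⌋ with hn
  have n1 := Int.floor_le (x 0)
  have n2 := Int.lt_floor_add_one (x 0)
  rw [← hn] at n1 n2
  have hL := h.lineTiles hu n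
  have hval : ∀ (i : ι) (s : ℝ),
      x - (toPt (n - (B i).cell, s) + pB B i) = ![x 0 - n, x 1 - (s + (B i).lo)] := fun i s => by
    funext l
    fin_cases l <;> simp [pB]
  refine existsUnique_of_exists_of_unique ?_ ?_
  · obtain ⟨⟨i, s⟩, ⟨hm, h1, h2⟩, -⟩ := h.exact (fun i => by rw [hu i]; norm_num) n (x 1)
    rw [hu i] at h2
    dsimp only at h1 h2
    by_cases hd : InDent (x 0 - n) ∧ x 1 - (s + (B i).lo) < 1 / 20
    · obtain ⟨⟨j, s'⟩, hm', e⟩ := exists_shift hL hm (-1)
      refine ⟨(n - (B j).cell, s'), hm', j, Or.inr ?_⟩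
      rw [hval]
      simp at e ⊢
      exact ⟨hd.1, by linarith, by linarith [hd.2]⟩
    · refine ⟨(n - (B i).cell, s), hm, i, Or.inl ?_⟩
      rw [hval]
      simp only [Matrix.cons_val_zero, Matrix.cons_val_one]
      exact ⟨by linarith, by linarith, by linarith, by linarith, hd⟩
  · rintro ⟨z, s⟩ ⟨z', s'⟩ ⟨hp, i, hi⟩ ⟨hp', j, hj⟩
    have hz : ∀ (z : ℤ) (s : ℝ) (i : ι), x - (toPt (z, s) + pB B i) ∈ block →
        z = n - (B i).cell := fun z s i hb => by
      obtain ⟨a, b⟩ := block_x hb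
      simp [pB] at a b
      have : z + (B i).cell = n := int_eq (by push_cast; linarith) (by push_cast; linarith)
      omega
    obtain rfl := hz z s i hi
    obtain rfl := hz z' s' j hj
    obtain ⟨k, hk⟩ := exists_int_diff hL (i := (i, s)) (j := (j, s')) hp hp'
    dsimp only at hk
    have hk0 : k = 0 := block_int hi (by
      convert hj using 1
      rw [hval, hval]
      funext l
      fin_cases l <;> simp
      linarith)
    subst hk0
    have := eq_of_lo_eq hL (i := (i, s)) (j := (j, s')) hp hp' (by simpa using hk.symm)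
    obtain ⟨rfl, rfl⟩ := Prod.mk.injEq .. ▸ this
    rfl

/-- Every point lies in exactly one translate of the tile. -/
theorem omega_partition (hS : Seed B P) (hA : Solves B P A) (x : Pt) :
    ∃! p, p ∈ A ∧ x - toPt p ∈ omega B P := by
  by_cases hx : ∃ (k : Fin r) (n : ℤ), Foot r k (x 0 - n)
  · obtain ⟨k, n, hf⟩ := hx
    have e : ∀ p : ℤ × ℝ, x - toPt p ∈ omega B P ↔ Hit (P k) (n - p.1) (x 1 - p.2) := fun p => by
      have : Foot r k ((x - toPt p) 0 - ((n - p.1 : ℤ) : ℝ)) := by simpa using hf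
      simpa using mem_omega_foot (B := B) (P := P) this
    simpa only [e] using hit_unique (hA.extra k) (hS.pos k) n (x 1)
  · push Not at hx
    have e : ∀ p : ℤ × ℝ,
        x - toPt p ∈ omega B P ↔ ∃ i, x - (toPt p + pB B i) ∈ block := by
      intro p
      constructor
      · rintro (⟨i, hi⟩ | ⟨k, n, hf, -⟩)
        · exact ⟨i, by rw [← sub_sub]; exact hi.1⟩
        · refine absurd ?_ (hx k (n + p.1))
          simpa [sub_sub, add_comm] using hf
      · rintro ⟨i, hi⟩
        rw [← sub_sub] at hi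
        refine Or.inl ⟨i, core_of_block hi fun k hk => hx k (p.1 + (B i).cell) ?_⟩
        simpa [pB, sub_sub] using hk
    simpa only [e] using blocks_unique hS.unit hA.base x

/-- The tile tiles the plane along a common solution. -/
theorem rtiles_of_solves (hS : Seed B P) (hA : Solves B P A) :
    RTiles (omega B P) (toPt '' A) := by
  refine ⟨Filter.Eventually.of_forall fun x => ?_, ?_⟩
  · obtain ⟨p, ⟨hp, hx⟩, -⟩ := omega_partition hS hA x
    exact ⟨toPt p, ⟨p, hp, rfl⟩, hx⟩
  · rintro _ ⟨p, hp, rfl⟩ _ ⟨q, hq, rfl⟩ hne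
    refine measure_mono_null (fun x hx => ?_) (measure_empty (μ := volume))
    exact hne (congrArg toPt ((omega_partition hS hA x).unique ⟨hp, hx.1⟩ ⟨hq, hx.2⟩))

end Vale.Agent.P043.Two
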