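import Vale.Agent.P043.Two.Exist
import Vale.Agent.P043.Two.Density

/-!
Measurability, boundedness and volume of the tile and of the union of its full blocks.
-/

namespace Vale.Agent.P043.Two

open MeasureTheory Set Function
open Vale.Agent.P043.Aperiodic Vale.Agent.P043.Aperiodic.Euclid

/-- A half-open rectangle. -/
private def hbox (a b : Fin 2 → ℝ) : Set Pt := univ.pi fun l => Ico (a l) (b l)

private theorem mem_hbox {a b : Fin 2 → ℝ} {x : Pt} :
    x ∈ hbox a b ↔ (a 0 ≤ x 0 ∧ x 0 < b 0) ∧ a 1 ≤ x 1 ∧ x 1 < b 1 := by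
  simp [hbox, Fin.forall_fin_two]

private theorem measurableSet_hbox (a b : Fin 2 → ℝ) : MeasurableSet (hbox a b) :=
  MeasurableSet.univ_pi fun _ => measurableSet_Ico

private theorem volume_hbox (a b : Fin 2 → ℝ) :
    volume (hbox a b) = ENNReal.ofReal (b 0 - a 0) * ENNReal.ofReal (b 1 - a 1) := by
  rw [hbox, Real.volume_pi_Ico, Fin.prod_univ_two]

theorem volume_block : volume block = 1 := by
  set S := hbox ![0, 0] ![1, 1] with hSdef
  set D := hbox ![1 / 5, 0] ![3 / 10, 1 / 20] with hDdef
  set U := hbox ![1 / 5, 1] ![3 / 10, 21 / 20] with hUdef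
  have e : block = (S \ D) ∪ U := by
    ext y
    simp only [block, hSdef, hDdef, hUdef, mem_union, mem_sdiff, mem_hbox, mem_ofPred_eq,
      Matrix.cons_val_zero, Matrix.cons_val_one, InDent]
    constructor
    · rintro (⟨a, b, c, d, h⟩ | h)
      · exact Or.inl ⟨⟨⟨a, b⟩, c, d⟩, fun g => h ⟨g.1, g.2.2⟩⟩
      · exact Or.inr h
    · rintro (⟨⟨⟨a, b⟩, c, d⟩, h⟩ | h)
      · exact Or.inl ⟨a, b, c, d, fun g => h ⟨g.1, c, g.2⟩⟩
      · exact Or.inr h
  have hsub : D ⊆ S := fun y hy => by
    simp only [hDdef, hSdef, mem_hbox, Matrix.cons_val_zero, Matrix.cons_val_one] at hy ⊢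
    exact ⟨⟨by linarith [hy.1.1], by linarith [hy.1.2]⟩, hy.2.1, by linarith [hy.2.2]⟩
  have hdis : Disjoint (S \ D) U := Set.disjoint_left.2 fun y hy hy' => by
    simp only [hSdef, hUdef, mem_sdiff, mem_hbox, Matrix.cons_val_zero, Matrix.cons_val_one]
      at hy hy'
    linarith [hy.1.2.2, hy'.2.1]
  have hD : volume D = ENNReal.ofReal (1 / 200) := by
    rw [hDdef, volume_hbox, ← ENNReal.ofReal_mul (by norm_num)]
    norm_num
  have hU : volume U = volume D := by
    rw [hD, hUdef, volume_hbox, ← ENNReal.ofReal_mul (by norm_num)]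
    norm_num
  rw [e, measure_union hdis (measurableSet_hbox _ _), hU,
    measure_sdiff hsub (measurableSet_hbox _ _).nullMeasurableSet (hD ▸ ENNReal.ofReal_ne_top),
    tsub_add_cancel_of_le (measure_mono hsub), hSdef, volume_hbox]
  simp

theorem volume_core (r : ℕ) : volume (core r) = ENNReal.ofReal (1 - r * wd r) := by
  have hs : slit r = hbox ![7 / 20, 0] ![7 / 20 + r * wd r, 1] := by
    ext y; simp [slit, mem_hbox, and_assoc]
  have hv : volume (slit r) = ENNReal.ofReal (r * wd r) := by
    rw [hs, volume_hbox]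
    simp
  rw [core, measure_sdiff (slit_subset_block r) (measurableSet_slit r).nullMeasurableSet
    (hv ▸ ENNReal.ofReal_ne_top), volume_block, hv, ENNReal.ofReal_sub _ (slit_width r).1,
    ENNReal.ofReal_one]

variable {ι : Type} {r : ℕ} {κ : Fin r → Type}

/-- The union of the full blocks of the base tile. -/
def fullSet (B : ι → Piece) : Set Pt := {x | ∃ i, x - pB B i ∈ block}

/-- The rectangle over a piece in slit `k`. -/
private noncomputable def pieceBox (k : Fin r) (p : Piece) : Set Pt :=
  hbox ![(p.cell : ℝ) + (7 / 20 + (k : ℕ) * wd r), p.lo]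
    ![(p.cell : ℝ) + (7 / 20 + ((k : ℕ) + 1) * wd r), p.lo + p.len]

private theorem mem_pieceBox {k : Fin r} {p : Piece} {x : Pt} :
    x ∈ pieceBox k p ↔ Foot r k (x 0 - p.cell) ∧ p.lo ≤ x 1 ∧ x 1 < p.lo + p.len := by
  simp [pieceBox, mem_hbox, Foot, sub_lt_iff_lt_add', le_sub_iff_add_le']

private theorem holeSet_eq (P : ∀ k, κ k → Piece) :
    holeSet P = ⋃ k, ⋃ i, pieceBox k (P k i) := by
  ext x
  simp only [holeSet, Hit, mem_iUnion, mem_pieceBox, mem_ofPred_eq]
  constructor
  · rintro ⟨k, n, hf, i, rfl, h⟩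
    exact ⟨k, i, hf, h⟩
  · rintro ⟨k, i, hf, h⟩
    exact ⟨k, _, hf, i, rfl, h⟩

private theorem volume_pieceBox (k : Fin r) (p : Piece) :
    volume (pieceBox k p) = ENNReal.ofReal (wd r) * ENNReal.ofReal p.len := by
  rw [pieceBox, volume_hbox]
  simp only [Matrix.cons_val_zero, Matrix.cons_val_one]
  ring_nf

variable [Fintype ι] [∀ k, Fintype (κ k)] {B : ι → Piece} {P : ∀ k, κ k → Piece}

omit [Fintype ι] in
theorem coreSet_eq : coreSet r B = ⋃ i, {x | x - pB B i ∈ core r} := by
  rw [coreSet, ofPred_exists]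

theorem measurableSet_omega : MeasurableSet (omega B P) := by
  rw [omega, coreSet_eq, holeSet_eq]
  exact (MeasurableSet.iUnion fun i => measurableSet_translate (measurableSet_core r) _).union
    (.iUnion fun k => .iUnion fun i => measurableSet_hbox _ _)

theorem measurableSet_fullSet : MeasurableSet (fullSet B) := by
  rw [fullSet, ofPred_exists]
  exact .iUnion fun i => measurableSet_translate measurableSet_block _

theorem isBounded_omega : Bornology.IsBounded (omega B P) := by
  rw [omega, coreSet_eq, holeSet_eq]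
  refine .union (Bornology.isBounded_iUnion.2 fun i => ?_)
    (Bornology.isBounded_iUnion.2 fun k => Bornology.isBounded_iUnion.2 fun i =>
      Bornology.IsBounded.pi fun _ => Metric.isBounded_Ico _ _)
  refine (Metric.isBounded_Icc (pB B i) (pB B i + fun _ => 21 / 20 : Pt)).subset fun x hx => ?_
  have a := block_x hx.1
  have b := block_y hx.1
  simp only [Pi.sub_apply] at a b
  exact ⟨fun l => by fin_cases l <;> simp <;> linarith,
    fun l => by fin_cases l <;> simp <;> linarith⟩

theorem volume_omega_le (hS : Seed B P) : volume (omega B P) ≤ Fintype.card ι := by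
  set q : ℝ := (Fintype.card ι : ℝ) with hq
  have hw := slit_width r
  have hc : volume (coreSet r B) ≤ ENNReal.ofReal (q * (1 - r * wd r)) := by
    rw [coreSet_eq]
    refine (measure_iUnion_le _).trans ?_
    simp only [volume_translate, volume_core, tsum_fintype, Finset.sum_const, Finset.card_univ,
      nsmul_eq_mul]
    rw [hq, ENNReal.ofReal_mul (Nat.cast_nonneg _), ENNReal.ofReal_natCast]
  have hh : volume (holeSet P) ≤ ENNReal.ofReal (q * (r * wd r)) := by
    rw [holeSet_eq]
    refine (measure_iUnion_le _).trans ((ENNReal.tsum_le_tsum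
      (g := fun _ : Fin r => ENNReal.ofReal (wd r * q)) fun k => ?_).trans (le_of_eq ?_))
    · refine (measure_iUnion_le _).trans (le_of_eq ?_)
      simp only [volume_pieceBox, tsum_fintype, ← Finset.mul_sum]
      rw [← ENNReal.ofReal_sum_of_nonneg fun i _ => (hS.pos k i).le, hS.total k,
        ← ENNReal.ofReal_mul (wd_pos r).le]
    · simp only [tsum_fintype, Finset.sum_const, Finset.card_univ, Fintype.card_fin, nsmul_eq_mul]
      rw [← ENNReal.ofReal_natCast, ← ENNReal.ofReal_mul (Nat.cast_nonneg _)]
      congr 1; ring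
  refine (measure_union_le _ _).trans ((add_le_add hc hh).trans (le_of_eq ?_))
  rw [← ENNReal.ofReal_add (mul_nonneg (Nat.cast_nonneg _) (by linarith))
    (mul_nonneg (Nat.cast_nonneg _) hw.1), ← ENNReal.ofReal_natCast]
  congr 1; ring

omit [Fintype ι] [∀ k, Fintype (κ k)] in
theorem volume_omega_pos (i : ι) : 0 < volume (omega B P) := by
  have h : 0 < volume {x : Pt | x - pB B i ∈ core r} := by
    rw [volume_translate]; exact core_volume_pos r
  exact h.trans_le (measure_mono fun x hx => Or.inl ⟨i, hx⟩)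

omit [Fintype ι] in
/-- The full blocks of the base tile do not meet. -/
theorem fullSet_disjoint (hu : ∀ i, (B i).len = 1) {A : Set (ℤ × ℝ)} (hA : PieceTiles B A) :
    Pairwise (Disjoint on fun i => {x : Pt | x - pB B i ∈ block}) := by
  intro i j hij
  refine Set.disjoint_left.2 fun x hx hy => hij ?_
  have a := block_x hx
  have b := block_x hy
  simp [pB] at a b
  have hc : (B i).cell = (B j).cell := int_eq (by linarith) (by linarith)
  obtain ⟨k, hk, hk0⟩ := hA.self_int hu hc
  have e : x - pB B i - toPt (0, (k : ℝ)) = x - pB B j := by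
    funext l
    fin_cases l <;> simp [pB, hc, hk]
    ring
  exact hk0 (block_int hx (e.symm ▸ hy))

theorem volume_fullSet (hu : ∀ i, (B i).len = 1) {A : Set (ℤ × ℝ)} (hA : PieceTiles B A) :
    volume (fullSet B) = Fintype.card ι := by
  rw [fullSet, ofPred_exists, measure_iUnion (fullSet_disjoint hu hA) fun i =>
    measurableSet_translate measurableSet_block _]
  simp [volume_translate, volume_block]

end Vale.Agent.P043.Two
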