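import Vale.Agent.P043.Two.Rigid
import Vale.Agent.P043.Two.Descend
import Vale.Agent.P043.Two.Measure

/-!
A seed with a common solution and no periodic one gives a bounded measurable set that tiles the plane
by translations and admits no periodic tiling.

A periodic tiling by the tile gives a periodic packing of the full blocks, hence, counting volume, a
tiling by blocks. Rigidity makes the first coordinates integral, the translates solve the equations,
and a full lattice of periods contains a period `(M, τ)` and a vertical one.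
-/

open MeasureTheory Set

namespace Vale.Agent.P043.Two

open Vale.Agent.P043.Aperiodic Vale.Agent.P043.Aperiodic.Euclid

variable {ι : Type} [Fintype ι] {r : ℕ} {κ : Fin r → Type} [∀ k, Fintype (κ k)]
  {B : ι → Piece} {P : ∀ k, κ k → Piece}

/-- **No periodic set tiles the plane with the tile.** -/
theorem no_rperiodic (hS : Seed B P) {A₀ : Set (ℤ × ℝ)} (h₀ : Solves B P A₀) (hno : NoPeriod B P)
    {A : Set Pt} (hA : RTiles (omega B P) A) : ¬RPeriodic A := by
  intro hper
  obtain ⟨⟨i₀, -⟩, -, -⟩ := (h₀.base 0).cover 0 1 one_pos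
  have hmeet : ∀ a ∈ A, ∀ b ∈ A, ∀ (i j : ι) (x : Pt), x - (a + pB B i) ∈ block →
      x - (b + pB B j) ∈ block → a = b := fun a ha b hb i j x hx hx' => by
    by_contra hne
    exact block_disjoint (r := r) (fun y hy => Or.inl ⟨i, hy⟩) (fun y hy => Or.inl ⟨j, hy⟩)
      (hA.2 ha hb hne) hx hx'
  have hpack : A.Pairwise fun a b =>
      volume ({x | x - a ∈ fullSet B} ∩ {x | x - b ∈ fullSet B}) = 0 := by
    intro a ha b hb hne
    refine measure_mono_null (fun x hx => ?_) measure_empty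
    obtain ⟨⟨i, hi⟩, ⟨j, hj⟩⟩ := hx
    rw [sub_sub] at hi hj
    exact hne (hmeet a ha b hb i j x hi hj)
  have hY : RTiles (fullSet B) A := tiles_of_packing hper measurableSet_omega measurableSet_fullSet
    (volume_omega_pos i₀).ne' ((volume_omega_le hS).trans_eq (volume_fullSet hS.unit h₀.base).symm)
    hA hpack
  set T : Set Pt := {u | ∃ a ∈ A, ∃ i, u = a + pB B i}
  have hT : RTiles block T := by
    refine ⟨hY.1.mono fun x hx => ?_, ?_⟩
    · obtain ⟨a, ha, i, hi⟩ := hx
      exact ⟨a + pB B i, ⟨a, ha, i, rfl⟩, by rw [← sub_sub]; exact hi⟩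
    · rintro _ ⟨a, ha, i, rfl⟩ _ ⟨b, hb, j, rfl⟩ hne
      refine measure_mono_null (fun x hx => ?_) measure_empty
      obtain rfl := hmeet a ha b hb i j x hx.1 hx.2
      have hij : i ≠ j := fun h => hne (by rw [h])
      have h1 : x - a ∈ {y : Pt | y - pB B i ∈ block} := by
        show x - a - pB B i ∈ block
        rw [sub_sub]; exact hx.1
      have h2 : x - a ∈ {y : Pt | y - pB B j ∈ block} := by
        show x - a - pB B j ∈ block
        rw [sub_sub]; exact hx.2
      exact Set.disjoint_left.1 (fullSet_disjoint hS.unit h₀.base hij) h1 h2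
  obtain ⟨x, a₀, ha₀, -⟩ := hA.1.exists
  have hint : ∀ a ∈ A, ∃ n : ℤ, a 0 = a₀ 0 + n := by
    intro a ha
    obtain ⟨m, h0⟩ := rigid_x hT (⟨a₀, ha₀, i₀, rfl⟩ : a₀ + pB B i₀ ∈ T)
      (⟨a, ha, i₀, rfl⟩ : a + pB B i₀ ∈ T)
    simp only [Pi.add_apply] at h0
    exact ⟨m, by linarith⟩
  have hSol := solves_of_rtiles hS h₀ hA hint
  obtain ⟨v, hv, hvA⟩ := hper
  have hn : ∀ i, ∃ n : ℤ, v i 0 = n := fun i => by
    obtain ⟨n, h0⟩ := hint _ ((hvA i a₀).2 ha₀)
    simp only [Pi.add_apply] at h0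
    exact ⟨n, by linarith⟩
  choose n hn using hn
  have hdet : v 0 0 * v 1 1 - v 0 1 * v 1 0 ≠ 0 := by
    have hu : IsUnit (Matrix.of v) :=
      Matrix.linearIndependent_rows_iff_isUnit.1 (show LinearIndependent ℝ (Matrix.of v).row from hv)
    rw [Matrix.isUnit_iff_isUnit_det] at hu
    simpa [Matrix.det_fin_two] using hu.ne_zero
  let G : AddSubgroup Pt :=
    { carrier := {g | ∀ a, a + g ∈ A ↔ a ∈ A}
      add_mem' := fun {g g'} hg hg' s => by rw [← add_assoc, hg', hg]
      zero_mem' := fun s => by simp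
      neg_mem' := fun {g} hg s => by simpa using (hg (s + -g)).symm }
  have shift : ∀ g ∈ G, ∀ (M : ℤ) (τ : ℝ), g 0 = M → g 1 = τ →
      ∀ z a, (z + M, a + τ) ∈ {p | a₀ + toPt p ∈ A} ↔ (z, a) ∈ {p | a₀ + toPt p ∈ A} := by
    intro g hg M τ h0 h1 z a
    have hgp : toPt (M, τ) = g := by funext l; fin_cases l <;> simp [h0, h1]
    show a₀ + toPt (z + M, a + τ) ∈ A ↔ a₀ + toPt (z, a) ∈ A
    rw [show ((z + M, a + τ) : ℤ × ℝ) = (z, a) + (M, τ) from rfl, toPt_add, hgp, ← add_assoc]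
    exact hg _
  -- a vertical period
  obtain ⟨h, hh, hhG⟩ : ∃ h : ℝ, 0 < h ∧ toPt (0, h) ∈ G := by
    have hwG : n 1 • v 0 - n 0 • v 1 ∈ G :=
      G.sub_mem (G.zsmul_mem (hvA 0) _) (G.zsmul_mem (hvA 1) _)
    set w : Pt := n 1 • v 0 - n 0 • v 1 with hwdef
    have w0 : w 0 = 0 := by simp [hwdef, hn]; ring
    have w1 : w 1 ≠ 0 := fun e => hdet (by
      simp [hwdef] at e
      rw [hn, hn]; linarith)
    have e : toPt (0, w 1) = w := by funext l; fin_cases l <;> simp [w0]
    have e' : toPt (0, -w 1) = -w := by funext l; fin_cases l <;> simp [w0]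
    rcases lt_or_gt_of_ne w1 with hlt | hgt
    · exact ⟨-w 1, neg_pos.2 hlt, e' ▸ G.neg_mem hwG⟩
    · exact ⟨w 1, hgt, e ▸ hwG⟩
  -- a period that moves the cells
  obtain ⟨g, hg, M, hM, hgM⟩ : ∃ g ∈ G, ∃ M : ℤ, 0 < M ∧ g 0 = M := by
    obtain ⟨i, hi⟩ : ∃ i, n i ≠ 0 := by
      by_contra hall
      push Not at hall
      exact hdet (by simp [hn, hall])
    rcases lt_or_gt_of_ne hi with hlt | hgt
    · exact ⟨-v i, G.neg_mem (hvA i), -n i, by omega, by simp [hn]⟩
    · exact ⟨v i, hvA i, n i, hgt, hn i⟩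
  refine hno _ hSol M (g 1) h hM hh (shift g hg M _ hgM rfl) fun z a => ?_
  have := shift _ hhG 0 h (by simp) (by simp) z a
  rwa [add_zero] at this

/-- **A seed with a common solution and no periodic one gives an aperiodic tile of the plane.** -/
theorem exists_aperiodic_two (hS : Seed B P) (hex : ∃ A, Solves B P A) (hno : NoPeriod B P) :
    ∃ Ω : Set (Fin 2 → ℝ), MeasurableSet Ω ∧ Bornology.IsBounded Ω ∧ 0 < volume Ω ∧
      (∃ A, RTiles Ω A) ∧ ∀ A, RTiles Ω A → ¬RPeriodic A := by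
  obtain ⟨A₀, h₀⟩ := hex
  obtain ⟨⟨i₀, -⟩, -, -⟩ := (h₀.base 0).cover 0 1 one_pos
  exact ⟨omega B P, measurableSet_omega, isBounded_omega, volume_omega_pos i₀,
    ⟨_, rtiles_of_solves hS h₀⟩, fun _ hA => no_rperiodic hS h₀ hno hA⟩

end Vale.Agent.P043.Two
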