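import Vale.Agent.P043.Two.Block

/-!
Rigidity: in a tiling by blocks the translates are invariant under the vertical unit step and their
first coordinates lie in one coset of `ℤ`.
-/

namespace Vale.Agent.P043.Two

open MeasureTheory Set
open Vale.Agent.P043.Aperiodic Vale.Agent.P043.Aperiodic.Euclid

/-- Translates of a set containing the core that meet in null sets have disjoint blocks. -/
theorem block_disjoint {r : ℕ} {Ω : Set Pt} {a b p q x : Pt}
    (hΩp : ∀ y, y - p ∈ core r → y ∈ Ω) (hΩq : ∀ y, y - q ∈ core r → y ∈ Ω)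
    (h : volume ({y | y - a ∈ Ω} ∩ {y | y - b ∈ Ω}) = 0)
    (hx : x - (a + p) ∈ block) (hx' : x - (b + q) ∈ block) : False := by
  obtain ⟨U, hU, ⟨y, hy⟩, hU1, hU2⟩ := core_overlap r (w := (b + q) - (a + p)) hx
    (by rwa [show x - (a + p) - (b + q - (a + p)) = x - (b + q) by abel])
  refine ((hU.preimage (by fun_prop : Continuous fun z : Pt => z - (a + p))).measure_pos volume
    ⟨y + (a + p), by simpa using hy⟩).ne' (measure_mono_null (fun z hz => ?_) h)
  refine ⟨hΩp _ ?_, hΩq _ ?_⟩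
  · rw [sub_sub]; exact hU1 hz
  · have := hU2 _ hz
    rw [show z - (a + p) - (b + q - (a + p)) = z - (b + q) by abel] at this
    rwa [sub_sub]

namespace Rigid

variable {T : Set Pt}

/-- Blocks of a tiling with a common point coincide. -/
theorem eq_of_meet (hT : RTiles block T) {t u x : Pt} (ht : t ∈ T) (hu : u ∈ T)
    (hx : x - t ∈ block) (hx' : x - u ∈ block) : u = t := by
  by_contra hne
  exact block_disjoint (r := 0) (p := 0) (q := 0) (fun y hy => by simpa using core_subset_block 0 hy)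
    (fun y hy => by simpa using core_subset_block 0 hy) (hT.2 ht hu (Ne.symm hne))
    (by simpa using hx) (by simpa using hx')

/-- Blocks closer than one in both directions coincide. -/
theorem eq_of_close (hT : RTiles block T) {t u : Pt} (ht : t ∈ T) (hu : u ∈ T)
    (h0 : |u 0 - t 0| < 1) (h1 : |u 1 - t 1| < 1) : u = t := by
  obtain ⟨x, hx, hx'⟩ := exists_common (t := t) (u := u) (Fin.forall_fin_two.2 ⟨h0, h1⟩)
  exact eq_of_meet hT ht hu hx hx'

theorem sub_mem (hT : RTiles block T) {t : Pt} (ht : t ∈ T) : t - axisVec 1 ∈ T := by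
  obtain ⟨x, ⟨⟨x0, x0'⟩, x1, x1'⟩, u, hu, hxu⟩ := exists_mem_of_ae
    (isOpen_rect (t 0 + 1 / 5) (t 0 + 3 / 10) (t 1) (t 1 + 1 / 20))
    (rect_nonempty (by linarith) (by linarith)) hT.1
  have self : x - t ∉ block := by
    rintro (h | h) <;> simp only [Pi.sub_apply] at h
    · exact h.2.2.2.2 ⟨⟨by linarith, by linarith⟩, by linarith⟩
    · linarith [h.2.1]
  rcases id hxu with ⟨a1, a2, a3, a4, -⟩ | ⟨⟨a1, a2⟩, a3, a4⟩ <;>
    simp only [Pi.sub_apply] at a1 a2 a3 a4
  · exact absurd (eq_of_close hT ht hu (abs_lt.2 ⟨by linarith, by linarith⟩)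
      (abs_lt.2 ⟨by linarith, by linarith⟩) ▸ hxu) self
  have h1 : u 1 - t 1 ≤ -1 := by
    by_contra hc
    push Not at hc
    exact self (eq_of_close hT ht hu (abs_lt.2 ⟨by linarith, by linarith⟩)
      (abs_lt.2 ⟨hc, by linarith⟩) ▸ hxu)
  have h0 : u 0 = t 0 := by
    by_contra hne
    -- a point of the bump of `u` outside the dent of `t`
    set v := u 0 - t 0 with hv
    have hv0 : v ≠ 0 := sub_ne_zero.2 hne
    obtain ⟨s, s1, s2, s3⟩ : ∃ s, 1 / 5 + v ≤ s ∧ s < 3 / 10 + v ∧ ¬InDent s := by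
      rcases lt_or_gt_of_ne hv0 with h | h
      · exact ⟨1 / 5 + v / 2, by linarith, by linarith, fun g => by linarith [g.1]⟩
      · exact ⟨3 / 10 + v / 2, by linarith, by linarith, fun g => by linarith [g.2]⟩
    have := eq_of_meet hT ht hu (x := ![t 0 + s, x 1])
      (Or.inl ⟨by simp; linarith, by simp; linarith, by simp; linarith, by simp; linarith,
        fun g => s3 (by simpa using g.1)⟩)
      (Or.inr ⟨⟨by simp; linarith, by simp; linarith⟩, by simp; linarith, by simp; linarith⟩)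
    exact hne (by rw [this])
  have e1 : u 1 = t 1 - 1 := by
    by_contra hne
    have hlt : u 1 + 1 < t 1 := by
      rcases lt_or_eq_of_le h1 with h | h
      · linarith
      · exact absurd (by linarith) hne
    obtain ⟨y, ⟨⟨y0, y0'⟩, y1, y1'⟩, w, hw, hyw⟩ := exists_mem_of_ae
      (isOpen_rect (t 0 + 2 / 5) (t 0 + 3 / 5) (u 1 + 1) (t 1))
      (rect_nonempty (by linarith) (by linarith)) hT.1
    have notu : w ≠ u := by
      rintro rfl
      rcases hyw with g | g <;> simp only [Pi.sub_apply] at g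
      · linarith [g.2.2.2.1]
      · linarith [g.1.2]
    have nott : w ≠ t := by
      rintro rfl
      have := (block_y hyw).1
      simp only [Pi.sub_apply] at this
      linarith
    rcases hyw with ⟨b1, b2, b3, b4, -⟩ | ⟨⟨b1, b2⟩, b3, b4⟩ <;>
      simp only [Pi.sub_apply] at b1 b2 b3 b4
    · by_cases h : w 1 - u 1 < 1
      · exact notu (eq_of_close hT hu hw (abs_lt.2 ⟨by linarith, by linarith⟩)
          (abs_lt.2 ⟨by linarith, h⟩))
      · exact nott (eq_of_close hT ht hw (abs_lt.2 ⟨by linarith, by linarith⟩)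
          (abs_lt.2 ⟨by linarith, by linarith⟩))
    · exact notu (eq_of_close hT hu hw (abs_lt.2 ⟨by linarith, by linarith⟩)
        (abs_lt.2 ⟨by linarith, by linarith⟩))
  suffices u = t - axisVec 1 by rwa [← this]
  funext l
  fin_cases l <;> simp [axisVec, h0, e1]

theorem add_mem (hT : RTiles block T) {t : Pt} (ht : t ∈ T) : t + axisVec 1 ∈ T := by
  obtain ⟨x, ⟨⟨x0, x0'⟩, x1, x1'⟩, u, hu, hxu⟩ := exists_mem_of_ae
    (isOpen_rect (t 0 + 7 / 10) (t 0 + 9 / 10) (t 1 + 17 / 10) (t 1 + 19 / 10))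
    (rect_nonempty (by linarith) (by linarith)) hT.1
  have := eq_of_close hT ht (sub_mem hT hu) (by
    rcases hxu with ⟨a1, a2, -⟩ | ⟨⟨a1, a2⟩, -⟩ <;> simp only [Pi.sub_apply] at a1 a2 <;>
      (simp [axisVec]; rw [abs_lt]; constructor <;> linarith)) (by
    rcases hxu with ⟨-, -, a1, a2, -⟩ | ⟨-, a1, a2⟩ <;> simp only [Pi.sub_apply] at a1 a2 <;>
      (simp [axisVec]; rw [abs_lt]; constructor <;> linarith))
  rwa [← this, sub_add_cancel]

theorem shift_mem (hT : RTiles block T) {t : Pt} (ht : t ∈ T) (k : ℤ) :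
    t + (k : ℝ) • axisVec 1 ∈ T := by
  induction k using Int.induction_on with
  | zero => simpa using ht
  | succ n ih =>
    have := add_mem hT ih
    push_cast
    rwa [add_smul, one_smul, ← add_assoc]
  | pred n ih =>
    have := sub_mem hT ih
    push_cast at this ⊢
    rwa [sub_smul, one_smul, ← add_sub_assoc]

/-- Blocks whose first coordinates differ by less than one agree there. -/
theorem flat_eq (hT : RTiles block T) {t u : Pt} (ht : t ∈ T) (hu : u ∈ T)
    (h : |u 0 - t 0| < 1) : u 0 = t 0 := by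
  have := Int.floor_le (u 1 - t 1)
  have := Int.lt_floor_add_one (u 1 - t 1)
  rw [eq_of_close hT (shift_mem hT ht ⌊u 1 - t 1⌋) hu (by simpa [axisVec] using h)
    (by simp [axisVec]; rw [abs_lt]; constructor <;> linarith)]
  simp [axisVec]

theorem exists_right (hT : RTiles block T) {t : Pt} (ht : t ∈ T) : ∃ u ∈ T, u 0 = t 0 + 1 := by
  have near : ∀ ε : ℝ, 0 < ε → ε < 1 → ∃ u ∈ T, t 0 + 1 ≤ u 0 ∧ u 0 < t 0 + 1 + ε := by
    intro ε hε hε'
    obtain ⟨x, ⟨⟨x0, x0'⟩, -⟩, u, hu, hxu⟩ := exists_mem_of_ae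
      (isOpen_rect (t 0 + 1) (t 0 + 1 + ε) 0 1) (rect_nonempty (by linarith) (by linarith)) hT.1
    obtain ⟨a, b⟩ := block_x hxu
    simp only [Pi.sub_apply] at a b
    refine ⟨u, hu, ?_, by linarith⟩
    by_contra hc
    push Not at hc
    have := flat_eq hT ht hu (abs_lt.2 ⟨by linarith, by linarith⟩)
    linarith
  obtain ⟨u, hu, u1, u2⟩ := near (1 / 2) (by norm_num) (by norm_num)
  refine ⟨u, hu, le_antisymm (le_of_not_gt fun hc => ?_) u1⟩
  obtain ⟨v, hv, v1, v2⟩ := near (u 0 - (t 0 + 1)) (by linarith) (by linarith)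
  have := flat_eq hT hu hv (abs_lt.2 ⟨by linarith, by linarith⟩)
  linarith

theorem exists_right_nat (hT : RTiles block T) {t : Pt} (ht : t ∈ T) :
    ∀ n : ℕ, ∃ u ∈ T, u 0 = t 0 + n
  | 0 => ⟨t, ht, by simp⟩
  | n + 1 => by
    obtain ⟨u, hu, e⟩ := exists_right_nat hT ht n
    obtain ⟨v, hv, e'⟩ := exists_right hT hu
    exact ⟨v, hv, by rw [e', e]; push_cast; ring⟩

theorem rigid_of_le (hT : RTiles block T) {t u : Pt} (ht : t ∈ T) (hu : u ∈ T)
    (h : t 0 ≤ u 0) : ∃ m : ℤ, u 0 = t 0 + m := by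
  obtain ⟨v, hv, e⟩ := exists_right_nat hT ht ⌊u 0 - t 0⌋₊
  have := Nat.floor_le (sub_nonneg.2 h)
  have := Nat.lt_floor_add_one (u 0 - t 0)
  refine ⟨⌊u 0 - t 0⌋₊, ?_⟩
  have := flat_eq hT hv hu (abs_lt.2 ⟨by linarith, by linarith⟩)
  push_cast
  linarith

end Rigid

/-- In a tiling by blocks the first coordinates lie in one coset of `ℤ`. -/
theorem rigid_x {T : Set Pt} (hT : RTiles block T) {t u : Pt} (ht : t ∈ T) (hu : u ∈ T) :
    ∃ m : ℤ, u 0 = t 0 + m := by
  rcases le_total (t 0) (u 0) with h | h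
  · exact Rigid.rigid_of_le hT ht hu h
  · obtain ⟨m, hm⟩ := Rigid.rigid_of_le hT hu ht h
    exact ⟨-m, by rw [hm]; push_cast; ring⟩

end Vale.Agent.P043.Two
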