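import Vale.Agent.P043.Three.System

/-!
Systems of interval pieces on `ℤ × ℝ`: the input of the reduction to one aperiodic tile of `ℝ²`.

A seed is a base tile `B` of unit pieces and finitely many further tiles `P k` of pieces of positive
length, all of the same total length.
-/

namespace Vale.Agent.P043.Two

open Vale.Agent.P043.Three (LineTiles exists_shift exists_int_diff eq_of_lo_eq)

/-- A piece of a tile: a cell, the lower end and the length of its interval. -/
structure Piece where
  cell : ℤ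
  lo : ℝ
  len : ℝ

/-- The indices of the translates of pieces in the column over `n`. -/
def colIdx {ι : Type*} (P : ι → Piece) (A : Set (ℤ × ℝ)) (n : ℤ) : Set (ι × ℝ) :=
  {q | (n - (P q.1).cell, q.2) ∈ A}

/-- `A` is a solution of the equation of the tile `P`: in every column the translated intervals are
disjoint and have dense union. -/
def PieceTiles {ι : Type*} (P : ι → Piece) (A : Set (ℤ × ℝ)) : Prop :=
  ∀ n : ℤ, LineTiles (colIdx P A n) (fun q => q.2 + (P q.1).lo) (fun q => (P q.1).len)

variable {ι : Type} [Fintype ι] {r : ℕ} {κ : Fin r → Type} [∀ k, Fintype (κ k)]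

/-- The conditions on a seed. -/
structure Seed (B : ι → Piece) (P : ∀ k, κ k → Piece) : Prop where
  unit : ∀ i, (B i).len = 1
  pos : ∀ k i, 0 < (P k i).len
  total : ∀ k, ∑ i, (P k i).len = Fintype.card ι

/-- `A` solves all equations of the seed. -/
structure Solves (B : ι → Piece) (P : ∀ k, κ k → Piece) (A : Set (ℤ × ℝ)) : Prop where
  base : PieceTiles B A
  extra : ∀ k, PieceTiles (P k) A

/-- No common solution has a period `(M, τ)` with `M > 0` together with a vertical period. -/
def NoPeriod (B : ι → Piece) (P : ∀ k, κ k → Piece) : Prop :=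
  ∀ A, Solves B P A → ∀ (M : ℤ) (τ h : ℝ), 0 < M → 0 < h →
    (∀ z a, (z + M, a + τ) ∈ A ↔ (z, a) ∈ A) → (∀ z a, (z, a + h) ∈ A ↔ (z, a) ∈ A) → False

section Exact

omit [Fintype ι] in
/-- Pieces of one tile in one cell do not overlap, once the tile has a solution. -/
theorem PieceTiles.self_disj {P : ι → Piece} {A : Set (ℤ × ℝ)} (h : PieceTiles P A) {i j : ι}
    (hc : (P i).cell = (P j).cell) {t : ℝ} (h1 : (P i).lo < t) (h2 : t < (P i).lo + (P i).len)
    (h3 : (P j).lo < t) (h4 : t < (P j).lo + (P j).len) : i = j := by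
  obtain ⟨⟨l, s⟩, hl, -⟩ := (h 0).cover 0 1 one_pos
  set z := 0 - (P l).cell with hz
  have hm : ∀ m, (P m).cell = (P i).cell → (m, s) ∈ colIdx P A (z + (P i).cell) := fun m hm => by
    show (z + (P i).cell - (P m).cell, s) ∈ A
    rw [hm, add_sub_cancel_right]
    exact hl
  exact congrArg Prod.fst ((h (z + (P i).cell)).disj (i, s) (hm i rfl) (j, s) (hm j hc.symm)
    (t + s) (by dsimp only; linarith) (by dsimp only; linarith) (by dsimp only; linarith)
    (by dsimp only; linarith))

omit [Fintype ι] in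
/-- Every height of every column lies in exactly one half-open translated piece. -/
theorem PieceTiles.exact [Finite ι] {P : ι → Piece} {A : Set (ℤ × ℝ)} (h : PieceTiles P A)
    (hpos : ∀ i, 0 < (P i).len) (n : ℤ) (t : ℝ) :
    ∃! q : ι × ℝ,
      q ∈ colIdx P A n ∧ q.2 + (P q.1).lo ≤ t ∧ t < q.2 + (P q.1).lo + (P q.1).len := by
  have hL := h n
  obtain ⟨δ, hδ, hle⟩ : ∃ δ : ℝ, 0 < δ ∧ ∀ i, δ ≤ (P i).len := by
    obtain ⟨q, -, -⟩ := hL.cover 0 1 one_pos
    have : Nonempty ι := ⟨q.1⟩
    obtain ⟨i₀, hi₀⟩ := Finite.exists_min fun i => (P i).len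
    exact ⟨(P i₀).len, hpos i₀, hi₀⟩
  refine existsUnique_of_exists_of_unique ?_ ?_
  · by_contra hno
    push Not at hno
    have near : ∀ ε : ℝ, 0 < ε →
        ∃ q ∈ colIdx P A n, t < q.2 + (P q.1).lo ∧ q.2 + (P q.1).lo < t + ε := by
      intro ε hε
      obtain ⟨q, hq, s, s1, s2, s3, s4⟩ := hL.cover t (t + ε) (by linarith)
      refine ⟨q, hq, ?_, by linarith⟩
      by_contra hc
      push Not at hc
      have := hno q hq hc
      linarith
    obtain ⟨q, hq, q1, q2⟩ := near δ hδ
    obtain ⟨q', hq', q1', q2'⟩ := near (q.2 + (P q.1).lo - t) (by linarith)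
    have m1 := hle q.1
    have m2 := hle q'.1
    have hm : q.2 + (P q.1).lo < q'.2 + (P q'.1).lo + (P q'.1).len := by linarith
    have hm' := lt_min hm (lt_add_of_pos_right (q.2 + (P q.1).lo) (hpos q.1))
    have := min_le_left (q'.2 + (P q'.1).lo + (P q'.1).len) (q.2 + (P q.1).lo + (P q.1).len)
    have := min_le_right (q'.2 + (P q'.1).lo + (P q'.1).len) (q.2 + (P q.1).lo + (P q.1).len)
    have e := hL.disj q hq q' hq' ((q.2 + (P q.1).lo +
      min (q'.2 + (P q'.1).lo + (P q'.1).len) (q.2 + (P q.1).lo + (P q.1).len)) / 2)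
      (by linarith) (by linarith) (by linarith) (by linarith)
    rw [← e] at q2'
    linarith
  · rintro q q' ⟨hq, a1, a2⟩ ⟨hq', b1, b2⟩
    have hm := lt_min a2 b2
    have := min_le_left (q.2 + (P q.1).lo + (P q.1).len) (q'.2 + (P q'.1).lo + (P q'.1).len)
    have := min_le_right (q.2 + (P q.1).lo + (P q.1).len) (q'.2 + (P q'.1).lo + (P q'.1).len)
    exact hL.disj q hq q' hq'
      ((t + min (q.2 + (P q.1).lo + (P q.1).len) (q'.2 + (P q'.1).lo + (P q'.1).len)) / 2)
      (by linarith) (by linarith) (by linarith) (by linarith)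

omit [Fintype ι] in
/-- The columns of a tile of unit pieces are unit line tiles. -/
theorem PieceTiles.lineTiles {B : ι → Piece} {A : Set (ℤ × ℝ)} (h : PieceTiles B A)
    (hu : ∀ i, (B i).len = 1) (n : ℤ) :
    LineTiles (colIdx B A n) (fun q => q.2 + (B q.1).lo) fun _ => 1 := by
  have := h n
  simpa only [hu] using this

omit [Fintype ι] in
/-- Unit pieces in one cell differ in height by integers, and differ. -/
theorem PieceTiles.self_int {B : ι → Piece} {A : Set (ℤ × ℝ)} (h : PieceTiles B A)
    (hu : ∀ i, (B i).len = 1) {i j : ι} (hc : (B i).cell = (B j).cell) :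
    ∃ k : ℤ, (B j).lo = (B i).lo + k ∧ (k = 0 → i = j) := by
  obtain ⟨⟨l, s⟩, hl, -⟩ := (h 0).cover 0 1 one_pos
  set z := 0 - (B l).cell with hz
  have hm : ∀ m, (B m).cell = (B i).cell → (m, s) ∈ colIdx B A (z + (B i).cell) := fun m hm => by
    show (z + (B i).cell - (B m).cell, s) ∈ A
    rw [hm, add_sub_cancel_right]
    exact hl
  obtain ⟨k, hk⟩ := exists_int_diff (h.lineTiles hu _) (hm i rfl) (hm j hc.symm)
  refine ⟨k, by dsimp only at hk; linarith, fun h0 => congrArg Prod.fst
    (eq_of_lo_eq (h.lineTiles hu _) (hm i rfl) (hm j hc.symm) ?_)⟩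
  subst h0
  simpa using hk.symm

end Exact

end Vale.Agent.P043.Two
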