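import Vale.Agent.P043.Two.Block
import Vale.Agent.P043.Two.System

/-!
The tile of a seed: the blocks of the base tile without their slits, and in slit `k` the pieces of
the tile `P k`.
-/

namespace Vale.Agent.P043.Two

open Set
open Vale.Agent.P043.Aperiodic Vale.Agent.P043.Aperiodic.Euclid

variable {ι : Type} {r : ℕ} {κ : Fin r → Type}

/-- The place of the block of a base piece. -/
def pB (B : ι → Piece) (i : ι) : Pt := toPt ((B i).cell, (B i).lo)

/-- The horizontal range of slit `k`. -/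
def Foot (r : ℕ) (k : Fin r) (a : ℝ) : Prop :=
  7 / 20 + (k : ℕ) * wd r ≤ a ∧ a < 7 / 20 + ((k : ℕ) + 1) * wd r

/-- Some piece of `P` lies in the cell `n` and covers the height `t`. -/
def Hit {σ : Type*} (P : σ → Piece) (n : ℤ) (t : ℝ) : Prop :=
  ∃ i, (P i).cell = n ∧ (P i).lo ≤ t ∧ t < (P i).lo + (P i).len

/-- The blocks without slits. -/
def coreSet (r : ℕ) (B : ι → Piece) : Set Pt := {x | ∃ i, x - pB B i ∈ core r}

/-- The slit pieces. -/
def holeSet (P : ∀ k, κ k → Piece) : Set Pt :=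
  {x | ∃ (k : Fin r) (n : ℤ), Foot r k (x 0 - n) ∧ Hit (P k) n (x 1)}

/-- **The tile.** -/
def omega (B : ι → Piece) (P : ∀ k, κ k → Piece) : Set Pt := coreSet r B ∪ holeSet P

/-- Two integers at distance below one coincide. -/
theorem int_eq {m n : ℤ} (h1 : (m : ℝ) - n < 1) (h2 : (n : ℝ) - m < 1) : m = n := by
  have a1 : ((m - n : ℤ) : ℝ) < ((1 : ℤ) : ℝ) := by push_cast; linarith
  have a2 : ((-1 : ℤ) : ℝ) < ((m - n : ℤ) : ℝ) := by push_cast; linarith
  have b1 := Int.cast_lt.1 a1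
  have b2 := Int.cast_lt.1 a2
  omega

theorem Foot.range {k : Fin r} {a : ℝ} (h : Foot r k a) :
    7 / 20 ≤ a ∧ a < 7 / 20 + r * wd r ∧ a < 3 / 8 := by
  have hk : ((k : ℕ) : ℝ) + 1 ≤ r := by exact_mod_cast k.isLt
  have h1 := mul_le_mul_of_nonneg_right hk (wd_pos r).le
  have h2 := mul_nonneg (Nat.cast_nonneg (α := ℝ) (k : ℕ)) (wd_pos r).le
  have h3 := (slit_width r).2
  exact ⟨by linarith [h.1], by linarith [h.2], by linarith [h.2]⟩

theorem exists_foot {a : ℝ} (h : 7 / 20 ≤ a) (h' : a < 7 / 20 + r * wd r) :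
    ∃ k, Foot r k a := by
  have hw := wd_pos r
  set b := (a - 7 / 20) / wd r with hb
  have e : b * wd r = a - 7 / 20 := by rw [hb]; field_simp
  have b0 : 0 ≤ b := div_nonneg (by linarith) hw.le
  have br : b < r := by rw [hb, div_lt_iff₀ hw]; linarith
  refine ⟨⟨⌊b⌋₊, (Nat.floor_lt b0).2 br⟩, ?_, ?_⟩
  · have := mul_le_mul_of_nonneg_right (Nat.floor_le b0) hw.le
    dsimp only; linarith
  · have := mul_lt_mul_of_pos_right (Nat.lt_floor_add_one b) hw
    dsimp only; linarith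

theorem Foot.unique {k k' : Fin r} {a : ℝ} {n n' : ℤ} (h : Foot r k (a - n))
    (h' : Foot r k' (a - n')) : k = k' ∧ n = n' := by
  obtain ⟨r1, -, r2⟩ := h.range
  obtain ⟨s1, -, s2⟩ := h'.range
  obtain rfl : n = n' := int_eq (by linarith) (by linarith)
  refine ⟨?_, rfl⟩
  obtain ⟨u1, u2⟩ := h
  obtain ⟨v1, v2⟩ := h'
  have hw := wd_pos r
  have a1 : ((k : ℕ) : ℝ) < (k' : ℕ) + 1 := lt_of_mul_lt_mul_right (by linarith) hw.le
  have a2 : ((k' : ℕ) : ℝ) < (k : ℕ) + 1 := lt_of_mul_lt_mul_right (by linarith) hw.le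
  have b1 : (k : ℕ) < (k' : ℕ) + 1 := by exact_mod_cast a1
  have b2 : (k' : ℕ) < (k : ℕ) + 1 := by exact_mod_cast a2
  exact Fin.ext (by omega)

/-- Off the slits a point of a block is a point of its core. -/
theorem core_of_block {y : Pt} (h : y ∈ block) (hn : ∀ k, ¬Foot r k (y 0)) : y ∈ core r :=
  ⟨h, fun hs => by
    obtain ⟨k, hk⟩ := exists_foot hs.1 hs.2.1
    exact hn k hk⟩

/-- Over a slit no core is seen. -/
theorem foot_not_core {k : Fin r} {y : Pt} {m : ℤ} (h : Foot r k (y 0 - m)) : y ∉ core r := by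
  rintro ⟨hb, hs⟩
  obtain ⟨r1, r2, r3⟩ := h.range
  obtain ⟨a, b⟩ := block_x hb
  obtain rfl : m = 0 := int_eq (by push_cast; linarith) (by push_cast; linarith)
  simp only [Int.cast_zero, sub_zero] at r1 r2
  rcases hb with hb | hb
  · exact hs ⟨r1, r2, hb.2.2.1, hb.2.2.2.1⟩
  · linarith [hb.1.2]

variable {B : ι → Piece} {P : ∀ k, κ k → Piece}

/-- Over slit `k` the tile is the tile `P k`. -/
theorem mem_omega_foot {k : Fin r} {x : Pt} {n : ℤ} (h : Foot r k (x 0 - n)) :
    x ∈ omega B P ↔ Hit (P k) n (x 1) := by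
  constructor
  · rintro (⟨i, hi⟩ | ⟨k', n', hf, hh⟩)
    · refine absurd hi (foot_not_core (k := k) (m := n - (B i).cell) ?_)
      rw [show (x - pB B i) 0 - ((n - (B i).cell : ℤ) : ℝ) = x 0 - n by simp [pB]]
      exact h
    · obtain ⟨rfl, rfl⟩ := hf.unique h
      exact hh
  · exact fun hh => Or.inr ⟨k, n, h, hh⟩

/-- In the middle of a cell the tile is the base tile. -/
theorem mem_omega_mid (hu : ∀ i, (B i).len = 1) {x : Pt} {n : ℤ} (a0 : 1 / 2 < x 0 - n)
    (a1 : x 0 - n < 1) : x ∈ omega B P ↔ Hit B n (x 1) := by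
  constructor
  · rintro (⟨i, hi, -⟩ | ⟨k', n', hf, -⟩)
    · obtain ⟨p, q⟩ := block_x hi
      simp [pB] at p q
      obtain rfl : (B i).cell = n := int_eq (by linarith) (by linarith)
      rcases hi with hi | hi
      · refine ⟨i, rfl, ?_, ?_⟩ <;> simp [pB] at hi
        · linarith [hi.2.2.1]
        · rw [hu i]; linarith [hi.2.2.2.1]
      · have := hi.1.2
        simp [pB] at this
        linarith
    · obtain ⟨r1, -, r2⟩ := hf.range
      obtain rfl : n' = n := int_eq (by linarith) (by linarith)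
      linarith
  · rintro ⟨i, rfl, l0, l1⟩
    rw [hu i] at l1
    refine Or.inl ⟨i, core_of_block (Or.inl ⟨?_, ?_, ?_, ?_, fun h => ?_⟩) fun k hk => ?_⟩
    · simp [pB]; linarith
    · simp [pB]; linarith
    · simp [pB]; linarith
    · simp [pB]; linarith
    · have := h.1.2
      simp [pB] at this
      linarith
    · obtain ⟨-, -, r3⟩ := hk.range
      simp [pB] at r3
      linarith

end Vale.Agent.P043.Two
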